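import Vale.Agent.P236N.Ex

/-!
# P236N: data of level 0
-/

noncomputable section

namespace Vale.Agent.P236N.Dt

/-- data -/
def b0_0 : List TV := [(1, 0)]

/-- data -/
def b0_4 : List TV := [(1, 0)]

/-- data -/
def b0_8 : List TV := [(0, 1)]

/-- data -/
def b0_12 : List TV := [(1, 0)]

/-- data -/
def b0_13 : List TV := [(1, 0)]

/-- data -/
def b0_16 : List TV := [(1, 0)]

/-- data -/
def b0_17 : List TV := [(1, 0)]

/-- data -/
def b0_20 : List TV := [(0, 1)]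

/-- data -/
def b0_21 : List TV := [(1, 0)]

/-- data -/
def b0_24 : List TV := [(0, 0x1000000000000000000000000000000000000000000000001)]

/-- data -/
def b0_25 : List TV := [(1, 0)]

/-- data -/
def b0_26 : List TV := [(0, 1)]

/-- data -/
def b0_28 : List TV := [(1, 0)]

/-- data -/
def b0_29 : List TV := [(1, 0)]

/-- data -/
def b0_30 : List TV := [(0, 1)]

/-- data -/
def b0_32 : List TV := [(0, 1)]

/-- data -/
def b0_33 : List TV := [(1, 0)]

/-- data -/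
def b0_34 : List TV := [(0, 1)]

/-- data -/
def b0_36 : List TV := [(1, 0)]

/-- data -/
def b0_37 : List TV := [(1, 0)]

/-- data -/
def b0_38 : List TV := [(0, 1)]

/-- data -/
def b0_39 : List TV := [(1, 0)]

/-- data -/
def b0_40 : List TV := [(1, 0),
  (2, 0)]

/-- data -/
def b0_41 : List TV := [(1, 0)]

/-- data -/
def b0_42 : List TV := [(0, 1)]

/-- data -/
def b0_43 : List TV := [(1, 0)]

/-- data -/
def b0_44 : List TV := [(0, 1),
  (2, 0)]

/-- data -/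
def b0_45 : List TV := [(1, 0)]

/-- data -/
def b0_46 : List TV := [(0, 1)]

/-- data -/
def b0_47 : List TV := [(1, 0)]

/-- data -/
def b0_48 : List TV := [(1, 0x1000000000000000000000000000000000000000000000000),
  (2, 0)]

/-- data -/
def b0_49 : List TV := [(1, 0)]

/-- data -/
def b0_50 : List TV := [(0, 1)]

/-- data -/
def b0_51 : List TV := [(1, 0)]

/-- data -/
def b0_52 : List TV := [(1, 0),
  (2, 0),
  (2, 4)]

/-- data -/
def b0_53 : List TV := [(1, 0),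
  (2, 0)]

/-- data -/
def b0_54 : List TV := [(0, 1)]

/-- data -/
def b0_55 : List TV := [(1, 0)]

/-- data -/
def b0_56 : List TV := [(0, 1),
  (2, 0),
  (2, 4)]

/-- data -/
def b0_57 : List TV := [(1, 0),
  (2, 0)]

/-- data -/
def b0_58 : List TV := [(0, 1)]

/-- data -/
def b0_59 : List TV := [(1, 0)]

/-- data -/
def b0_60 : List TV := [(0, 0x1000000000000000000000000000000000000000000000001),
  (2, 0),
  (2, 4)]

/-- data -/
def b0_61 : List TV := [(1, 0),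
  (2, 0)]

/-- data -/
def b0_62 : List TV := [(0, 1)]

/-- data -/
def b0_63 : List TV := [(1, 0)]

/-- data -/
def b0_64 : List TV := [(1, 0),
  (2, 0),
  (2, 4)]

/-- data -/
def b0_65 : List TV := [(1, 0),
  (2, 0),
  (4, 2)]

/-- data -/
def b0_66 : List TV := [(0, 1),
  (2, 0)]

/-- data -/
def b0_67 : List TV := [(1, 0)]

/-- data -/
def b0_68 : List TV := [(0, 1),
  (2, 0),
  (2, 4)]

/-- data -/
def b0_69 : List TV := [(1, 0),
  (2, 0),
  (4, 2)]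

/-- data -/
def b0_70 : List TV := [(0, 1),
  (2, 0)]

/-- data -/
def b0_71 : List TV := [(1, 0)]

/-- data -/
def b0_72 : List TV := [(1, 0),
  (2, 0),
  (2, 4)]

/-- data -/
def b0_73 : List TV := [(1, 0),
  (2, 0),
  (4, 2)]

/-- data -/
def b0_74 : List TV := [(0, 1),
  (2, 0)]

/-- data -/
def b0_75 : List TV := [(1, 0)]

/-- data -/
def b0_76 : List TV := [(1, 0),
  (2, 0),
  (2, 4)]

/-- data -/
def b0_77 : List TV := [(1, 0),
  (2, 0),
  (4, 2)]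

/-- data -/
def b0_78 : List TV := [(0, 1),
  (0, 2),
  (0, 6)]

/-- data -/
def b0_79 : List TV := [(1, 0),
  (2, 0)]

/-- data -/
def b0_80 : List TV := [(0, 1),
  (2, 0),
  (2, 4),
  (0, 8)]

/-- data -/
def b0_81 : List TV := [(1, 0),
  (2, 0),
  (4, 2)]

/-- data -/
def b0_82 : List TV := [(0, 1),
  (0, 2),
  (0, 6)]

/-- data -/
def b0_83 : List TV := [(1, 0),
  (2, 0)]

/-- data -/
def b0_84 : List TV := [(1, 0x1000000000000000000000000000000000000000000000000),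
  (2, 0),
  (2, 4),
  (0, 8)]

/-- data -/
def b0_85 : List TV := [(1, 0),
  (2, 0),
  (4, 2)]

/-- data -/
def b0_86 : List TV := [(0, 1),
  (0, 2),
  (0, 6)]

/-- data -/
def b0_87 : List TV := [(1, 0),
  (2, 0)]

/-- data -/
def b0_88 : List TV := [(1, 0),
  (2, 0),
  (2, 4),
  (0, 8)]

/-- data -/
def b0_89 : List TV := [(1, 0),
  (2, 0),
  (4, 2)]

/-- data -/
def b0_90 : List TV := [(0, 1),
  (0, 2),
  (0, 6)]

/-- data -/
def b0 : List (List TV) := [b0_0, [], [], [], b0_4, [], [], [], b0_8, [], [], [], b0_12, b0_13, [], [], b0_16, b0_17, [], [], b0_20, b0_21, [], [], b0_24, b0_25, b0_26, [], b0_28, b0_29, b0_30, [], b0_32, b0_33, b0_34, [], b0_36, b0_37, b0_38, b0_39, b0_40, b0_41, b0_42, b0_43, b0_44, b0_45, b0_46, b0_47, b0_48, b0_49, b0_50, b0_51, b0_52, b0_53, b0_54, b0_55, b0_56, b0_57, b0_58, b0_59, b0_60, b0_61, b0_62, b0_63, b0_64, b0_65, b0_66, b0_67, b0_68, b0_69, b0_70, b0_71, b0_72, b0_73,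 b0_74, b0_75, b0_76, b0_77, b0_78, b0_79, b0_80, b0_81, b0_82, b0_83, b0_84, b0_85, b0_86, b0_87, b0_88, b0_89, b0_90]

/-- data -/
def t0 : List (List Nat) := [[0],
  [],
  [],
  [],
  [65],
  [],
  [],
  [],
  [65],
  [],
  [],
  [],
  [194],
  [2],
  [],
  [],
  [65],
  [2],
  [],
  [],
  [65],
  [2],
  [],
  [],
  [193],
  [2],
  [2],
  [],
  [66],
  [3],
  [2],
  [],
  [66],
  [3],
  [2],
  [],
  [0],
  [3],
  [2],
  [4],
  [66, 3],
  [4],
  [3],
  [5],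
  [66, 3],
  [4],
  [3],
  [5],
  [193, 4],
  [4],
  [3],
  [5],
  [66, 4, 3],
  [5, 7],
  [4],
  [6],
  [66, 5, 4],
  [5, 7],
  [4],
  [6],
  [193, 5, 4],
  [5, 8],
  [4],
  [6],
  [66, 5, 4],
  [5, 8, 7],
  [5, 7],
  [7],
  [67, 6, 5],
  [6, 9, 8],
  [5, 7],
  [7],
  [0, 6, 5],
  [6, 9, 8],
  [5, 8],
  [8],
  [67, 6, 5],
  [6, 9, 8],
  [5, 8, 7],
  [9, 11],
  [68, 7, 6, 8],
  [8, 11, 10],
  [6, 9, 8],
  [10, 12],
  [193, 7, 6, 8],
  [8, 11, 10],
  [6, 9, 8],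
  [11, 13],
  [68, 8, 6, 9],
  [8, 12, 10],
  [6, 9, 8]]

/-- data -/
def r0 : List (List Nat) := [[0],
  [],
  [],
  [],
  [0],
  [],
  [],
  [],
  [0],
  [],
  [],
  [],
  [0],
  [0],
  [],
  [],
  [0],
  [0],
  [],
  [],
  [0],
  [0],
  [],
  [],
  [0],
  [0],
  [0],
  [],
  [0],
  [0],
  [0],
  [],
  [0],
  [0],
  [0],
  [],
  [0],
  [0],
  [0],
  [0],
  [0, 0],
  [0],
  [0],
  [0],
  [0, 0],
  [0],
  [0],
  [0],
  [0, 0],
  [0],
  [0],
  [0],
  [0, 0, 0],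
  [0, 0],
  [0],
  [0],
  [0, 0, 0],
  [0, 0],
  [0],
  [0],
  [0, 0, 0],
  [0, 0],
  [0],
  [0],
  [0, 0, 0],
  [0, 0, 0],
  [0, 0],
  [0],
  [0, 0, 0],
  [0, 0, 0],
  [0, 0],
  [0],
  [0, 0, 0],
  [0, 0, 0],
  [0, 0],
  [0],
  [0, 0, 0],
  [0, 0, 0],
  [0, 0, 0],
  [0, 0],
  [0, 0, 0, 0],
  [0, 0, 0],
  [0, 0, 0],
  [0, 0],
  [0, 0, 0, 0],
  [0, 0, 0],
  [0, 0, 0],
  [0, 0],
  [0, 0, 0, 0],
  [0, 0, 0],
  [0, 0, 0]]

/-- data -/
def k0 : List Bk := []

end Vale.Agent.P236N.Dt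

end
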