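import Vale.Agent.P236C.D.L
import Vale.Agent.P236N.Dt.L00
import Vale.Agent.P236N.Dt.L01
import Vale.Agent.P236N.Dt.L02
import Vale.Agent.P236N.Dt.L03
import Vale.Agent.P236N.Dt.L04
import Vale.Agent.P236N.Dt.L05
import Vale.Agent.P236N.Dt.L06
import Vale.Agent.P236N.Dt.L07
import Vale.Agent.P236N.Dt.L08
import Vale.Agent.P236N.Dt.L09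
import Vale.Agent.P236N.Dt.L10
import Vale.Agent.P236N.Dt.L11
import Vale.Agent.P236N.Dt.L12
import Vale.Agent.P236N.Dt.L13
import Vale.Agent.P236N.Dt.L14
import Vale.Agent.P236N.Dt.L15
import Vale.Agent.P236N.Dt.L16
import Vale.Agent.P236N.Dt.L17
import Vale.Agent.P236N.Dt.L18
import Vale.Agent.P236N.Dt.L19
import Vale.Agent.P236N.Dt.L20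
import Vale.Agent.P236N.Dt.L21
import Vale.Agent.P236N.Dt.L22
import Vale.Agent.P236N.Dt.L23
import Vale.Agent.P236N.Dt.L24
import Vale.Agent.P236N.Dt.L25
import Vale.Agent.P236N.Dt.L26
import Vale.Agent.P236N.Dt.L27
import Vale.Agent.P236N.Dt.L28
import Vale.Agent.P236N.Dt.L29
import Vale.Agent.P236N.Dt.L30
import Vale.Agent.P236N.Dt.L31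
import Vale.Agent.P236N.Dt.L32
import Vale.Agent.P236N.Dt.L33

/-!
# P236N: the data
-/

noncomputable section

namespace Vale.Agent.P236N.Dt

/-- the data -/
def D : Dat where
  dl := P236C.D.dsA
  B s := [b0, b1, b2, b3, b4, b5, b6, b7, b8, b9, b10, b11, b12, b13, b14, b15, b16, b17, b18, b19, b20, b21, b22, b23, b24, b25, b26, b27, b28, b29, b30, b31, b32, b33].getD s []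
  t s := [t0, t1, t2, t3, t4, t5, t6, t7, t8, t9, t10, t11, t12, t13, t14, t15, t16, t17, t18, t19, t20, t21, t22, t23, t24, t25, t26, t27, t28, t29, t30, t31, t32, t33].getD s []
  sr s := [r0, r1, r2, r3, r4, r5, r6, r7, r8, r9, r10, r11, r12, r13, r14, r15, r16, r17, r18, r19, r20, r21, r22, r23, r24, r25, r26, r27, r28, r29, r30, r31, r32, r33].getD s []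
  rb s := [k0, k1, k2, k3, k4, k5, k6, k7, k8, k9, k10, k11, k12, k13, k14, k15, k16, k17, k18, k19, k20, k21, k22, k23, k24, k25, k26, k27, k28, k29, k30, k31, k32, k33].getD s []
  kt s := [0x0,
    0x0,
    0x6dfffff,
    0x24924924fffffff,
    0x16db6fffffffffffffffff,
    0x1fffffffffffffffffffff,
    0xffffffffffffffffffffff,
    0xffffffffffffffffffffff,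
    0xffffffffffffffffffffff,
    0xffffffffffffffffffffff,
    0xffffffffffffffffffffff,
    0xffffffffffffffffffffff,
    0xffffffffffffffffffffff,
    0xffffffffffffffffffffff,
    0xffffffffffffffffffffff,
    0xffffffffffffffffffffff,
    0xffffffffffffffffffffff,
    0xffffffffffffffffffffff,
    0xffffffffffffffffffffff,
    0xffffffffffffffffffffff,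
    0xffffffffffffffffffffff,
    0xffffffffffffffffffffff,
    0xffffffffffffffffffffff,
    0xffffffffffffffffffffff,
    0xffffffffffffffffffffff,
    0xffffffffffffffffffffff,
    0xffffffffffffffffffffff,
    0xffffffffffffffffffffff,
    0xffffffffffffffffffffff,
    0xffffffffffffffffffffff,
    0xffffffffffffffffffffff,
    0xffffffffffffffffffffff,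
    0xffffffffffffffffffffff,
    0xffffffffffffffffffffff].getD s 0
  r1 := ⟨(1, 0), (0x200000000000000000000000000000002, 0), [(1, 0), (0, 0), (2, 0), (0, 0)]⟩

/-- the numbers of named classes -/
def nT : List (List Nat) := [[0, 0, 0, 0, 0, 0, 0, 0, 0, 0, 0, 0, 0, 0, 0, 0, 0, 0, 0, 0, 0, 0, 0, 0, 0, 0, 0, 0, 0, 0, 0, 0, 0, 0, 0, 0, 0, 0, 0, 0, 0, 0, 0, 0, 0, 0, 0, 0, 0, 0, 0, 0, 0, 0, 0, 0, 0, 0, 0, 0, 0, 0, 0, 0, 0, 0, 0, 0, 0, 0, 0, 0, 0, 0, 0, 0, 0, 0, 0, 0, 0, 0, 0, 0, 0, 0, 0, 0, 0, 0, 0],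
  [0, 1, 1, 2, 0, 0, 0, 1, 0, 1, 1, 1, 0, 0, 0, 1, 0, 0, 0, 1, 0, 1, 1, 1, 0, 0, 0, 1, 1, 1, 0, 1, 0, 0, 0, 0, 0, 0, 0, 0, 0, 0, 0, 0, 0, 0, 0, 0, 0, 0, 0, 0, 0, 0, 0, 0, 0, 0, 0, 0, 0, 0, 0, 0, 0, 0, 0, 0, 0, 0, 0, 0, 0, 0, 0, 0, 0, 0, 0, 0, 0, 0, 0, 0, 0, 0, 0, 0, 0, 0, 0],
  [0, 0, 0, 1, 1, 0, 0, 1, 1, 1, 2, 1, 1, 0, 0, 2, 1, 0, 0, 1, 0, 3, 2, 2, 0, 0, 0, 3, 3, 2, 2, 1, 0, 1, 1, 0, 0, 0, 0, 2, 1, 0, 0, 0, 0, 3, 3, 2, 0, 0, 0, 2, 1, 0, 0, 0, 0, 2, 2, 1, 2, 1, 1, 3, 2, 1, 0, 0, 0, 0, 0, 0, 0, 0, 0, 0, 0, 0, 0, 0, 0, 0, 0, 0, 0, 0, 0, 0, 0, 0, 0],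
  [0, 0, 0, 0, 1, 0, 1, 0, 1, 0, 2, 0, 2, 0, 1, 1, 2, 0, 2, 0, 0, 2, 3, 1, 3, 1, 1, 1, 3, 2, 5, 1, 0, 1, 3, 2, 3, 2, 1, 1, 2, 1, 2, 0, 0, 2, 4, 3, 3, 1, 1, 2, 2, 1, 2, 1, 0, 2, 2, 0, 3, 2, 3, 4, 5, 3, 2, 0, 2, 7, 5, 0, 2, 3, 1, 2, 3, 0, 1, 0, 0, 3, 3, 1, 4, 3, 1, 2, 4, 1, 3],
  [0, 0, 0, 0, 0, 0, 1, 1, 0, 0, 1, 1, 1, 1, 1, 1, 1, 0, 3, 1, 1, 0, 3, 0, 4, 2, 3, 0, 2, 1, 6, 3, 1, 1, 2, 1, 3, 4, 2, 1, 1, 2, 5, 2, 1, 0, 3, 1, 4, 2, 2, 1, 2, 1, 4, 4, 1, 2, 1, 2, 2, 3, 2, 5, 4, 5, 4, 3, 1, 7, 5, 3, 5, 5, 3, 4, 5, 4, 4, 2, 2, 6, 4, 4, 4, 8, 3, 8, 3, 8, 4],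
  [0, 0, 0, 0, 0, 0, 0, 1, 0, 1, 0, 1, 0, 2, 0, 2, 0, 1, 1, 2, 1, 2, 1, 1, 2, 3, 2, 2, 2, 1, 3, 3, 2, 3, 3, 0, 3, 3, 3, 2, 1, 1, 4, 3, 3, 2, 2, 1, 3, 3, 2, 1, 2, 0, 3, 4, 2, 2, 1, 3, 3, 5, 1, 5, 2, 6, 4, 7, 0, 7, 3, 6, 7, 8, 2, 5, 6, 5, 6, 5, 2, 6, 5, 6, 6, 9, 3, 8, 5, 9, 5],
  [0, 0, 0, 0, 0, 0, 0, 0, 0, 1, 1, 0, 0, 1, 1, 1, 1, 1, 1, 1, 0, 3, 1, 2, 0, 3, 0, 4, 2, 3, 0, 2, 1, 4, 3, 1, 2, 2, 3, 3, 4, 1, 2, 1, 3, 4, 3, 2, 2, 3, 2, 3, 3, 2, 2, 1, 2, 2, 4, 1, 4, 4, 5, 3, 4, 4, 6, 6, 2, 7, 5, 4, 7, 9, 4, 7, 5, 7, 6, 7, 3, 7, 6, 6, 7, 9, 5, 5, 9, 6, 8],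
  [0, 0, 0, 0, 0, 0, 0, 0, 0, 0, 1, 0, 1, 0, 1, 0, 2, 0, 2, 0, 1, 1, 2, 1, 2, 1, 1, 2, 3, 2, 2, 2, 1, 2, 2, 2, 1, 2, 1, 3, 4, 3, 2, 2, 1, 4, 4, 3, 2, 2, 2, 3, 3, 3, 3, 2, 2, 3, 5, 1, 4, 2, 6, 4, 7, 2, 7, 4, 6, 5, 9, 2, 7, 5, 6, 7, 6, 5, 6, 8, 5, 9, 6, 6, 5, 11, 6, 6, 8, 5, 8],
  [0, 0, 0, 0, 0, 0, 0, 0, 0, 0, 0, 0, 1, 1, 0, 0, 1, 1, 1, 1, 1, 1, 1, 0, 3, 1, 2, 0, 3, 0, 4, 2, 3, 0, 2, 1, 3, 2, 1, 1, 2, 2, 2, 4, 1, 3, 3, 3, 3, 3, 2, 3, 2, 1, 3, 4, 2, 6, 3, 3, 4, 4, 3, 7, 6, 5, 5, 5, 5, 7, 8, 4, 8, 4, 5, 6, 8, 2, 7, 6, 6, 9, 8, 6, 6, 10, 6, 8, 6, 7, 5],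
  [0, 0, 0, 0, 0, 0, 0, 0, 0, 0, 0, 0, 0, 1, 0, 1, 0, 1, 0, 2, 0, 2, 0, 1, 1, 2, 1, 2, 1, 1, 2, 3, 2, 2, 2, 1, 2, 2, 2, 1, 2, 0, 2, 3, 2, 2, 3, 1, 3, 3, 2, 3, 3, 1, 3, 3, 2, 6, 4, 3, 5, 5, 3, 7, 4, 7, 6, 7, 1, 9, 5, 8, 7, 9, 3, 8, 6, 5, 8, 5, 4, 7, 10, 6, 9, 7, 7, 6, 8, 7, 7],
  [0, 0, 0, 0, 0, 0, 0, 0, 0, 0, 0, 0, 0, 0, 0, 1, 1, 0, 0, 1, 1, 1, 1, 1, 1, 1, 0, 3, 1, 2, 0, 3, 0, 4, 2, 3, 0, 2, 1, 3, 2, 1, 1, 2, 1, 2, 4, 1, 2, 2, 1, 2, 4, 2, 4, 2, 2, 3, 6, 2, 7, 3, 5, 4, 6, 4, 10, 6, 4, 6, 6, 6, 8, 9, 4, 9, 5, 7, 9, 8, 3, 7, 8, 6, 9, 7, 7, 5, 9, 5, 10],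
  [0, 0, 0, 0, 0, 0, 0, 0, 0, 0, 0, 0, 0, 0, 0, 0, 1, 0, 1, 0, 1, 0, 2, 0, 2, 0, 1, 1, 2, 1, 2, 1, 1, 2, 3, 2, 2, 2, 1, 2, 2, 2, 1, 2, 0, 2, 3, 2, 2, 3, 0, 2, 3, 2, 3, 3, 2, 3, 4, 3, 6, 4, 4, 4, 6, 3, 9, 4, 7, 5, 9, 1, 11, 5, 9, 6, 8, 3, 11, 7, 7, 8, 7, 5, 8, 9, 6, 8, 7, 5, 7],
  [0, 0, 0, 0, 0, 0, 0, 0, 0, 0, 0, 0, 0, 0, 0, 0, 0, 0, 1, 1, 0, 0, 1, 1, 1, 1, 1, 1, 1, 0, 3, 1, 2, 0, 3, 0, 4, 2, 3, 0, 2, 1, 3, 2, 1, 1, 2, 1, 2, 4, 1, 2, 2, 1, 2, 4, 2, 4, 2, 3, 3, 6, 2, 7, 3, 5, 4, 6, 4, 8, 6, 4, 7, 6, 8, 8, 9, 3, 10, 5, 8, 8, 9, 4, 8, 8, 7, 9, 8, 7, 6],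
  [0, 0, 0, 0, 0, 0, 0, 0, 0, 0, 0, 0, 0, 0, 0, 0, 0, 0, 0, 1, 0, 1, 0, 1, 0, 2, 0, 2, 0, 1, 1, 2, 1, 2, 1, 1, 2, 3, 2, 2, 2, 1, 2, 2, 2, 1, 2, 0, 2, 3, 2, 2, 3, 0, 2, 3, 2, 3, 3, 2, 3, 4, 3, 6, 4, 4, 4, 6, 3, 8, 3, 7, 3, 8, 2, 11, 6, 9, 6, 9, 3, 10, 8, 7, 7, 7, 6, 7, 9, 7, 10],
  [0, 0, 0, 0, 0, 0, 0, 0, 0, 0, 0, 0, 0, 0, 0, 0, 0, 0, 0, 0, 0, 1, 1, 0, 0, 1, 1, 1, 1, 1, 1, 1, 0, 3, 1, 2, 0, 3, 0, 4, 2, 3, 0, 2, 1, 3, 2, 1, 1, 2, 1, 2, 4, 1, 2, 2, 1, 2, 4, 2, 4, 2, 3, 3, 6, 2, 7, 3, 5, 4, 6, 4, 7, 5, 4, 6, 6, 7, 7, 9, 3, 9, 6, 8, 7, 9, 4, 7, 7, 6, 9],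
  [0, 0, 0, 0, 0, 0, 0, 0, 0, 0, 0, 0, 0, 0, 0, 0, 0, 0, 0, 0, 0, 0, 1, 0, 1, 0, 1, 0, 2, 0, 2, 0, 1, 1, 2, 1, 2, 1, 1, 2, 3, 2, 2, 2, 1, 2, 2, 2, 1, 2, 0, 2, 3, 2, 2, 3, 0, 2, 3, 2, 3, 3, 2, 3, 4, 3, 6, 4, 4, 4, 6, 3, 8, 3, 7, 3, 8, 1, 10, 5, 8, 5, 8, 3, 9, 7, 6, 6, 7, 5, 7],
  [0, 0, 0, 0, 0, 0, 0, 0, 0, 0, 0, 0, 0, 0, 0, 0, 0, 0, 0, 0, 0, 0, 0, 0, 1, 1, 0, 0, 1, 1, 1, 1, 1, 1, 1, 0, 3, 1, 2, 0, 3, 0, 4, 2, 3, 0, 2, 1, 3, 2, 1, 1, 2, 1, 2, 4, 1, 2, 2, 1, 2, 4, 2, 4, 2, 3, 3, 6, 2, 7, 3, 5, 4, 6, 4, 7, 5, 4, 6, 6, 6, 7, 8, 3, 8, 5, 6, 5, 8, 4, 8],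
  [0, 0, 0, 0, 0, 0, 0, 0, 0, 0, 0, 0, 0, 0, 0, 0, 0, 0, 0, 0, 0, 0, 0, 0, 0, 1, 0, 1, 0, 1, 0, 2, 0, 2, 0, 1, 1, 2, 1, 2, 1, 1, 2, 3, 2, 2, 2, 1, 2, 2, 2, 1, 2, 0, 2, 3, 2, 2, 3, 0, 2, 3, 2, 3, 3, 2, 3, 4, 3, 6, 4, 4, 4, 6, 3, 8, 3, 7, 3, 8, 1, 10, 5, 8, 5, 8, 2, 8, 6, 6, 6],
  [0, 0, 0, 0, 0, 0, 0, 0, 0, 0, 0, 0, 0, 0, 0, 0, 0, 0, 0, 0, 0, 0, 0, 0, 0, 0, 0, 1, 1, 0, 0, 1, 1, 1, 1, 1, 1, 1, 0, 3, 1, 2, 0, 3, 0, 4, 2, 3, 0, 2, 1, 3, 2, 1, 1, 2, 1, 2, 4, 1, 2, 2, 1, 2, 4, 2, 4, 2, 3, 3, 6, 2, 7, 3, 5, 4, 6, 4, 7, 5, 4, 6, 6, 6, 7, 8, 3, 8, 5, 6, 5],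
  [0, 0, 0, 0, 0, 0, 0, 0, 0, 0, 0, 0, 0, 0, 0, 0, 0, 0, 0, 0, 0, 0, 0, 0, 0, 0, 0, 0, 1, 0, 1, 0, 1, 0, 2, 0, 2, 0, 1, 1, 2, 1, 2, 1, 1, 2, 3, 2, 2, 2, 1, 2, 2, 2, 1, 2, 0, 2, 3, 2, 2, 3, 0, 2, 3, 2, 3, 3, 2, 3, 4, 3, 6, 4, 4, 4, 6, 3, 8, 3, 7, 3, 8, 1, 10, 5, 8, 5, 8, 2, 8],
  [0, 0, 0, 0, 0, 0, 0, 0, 0, 0, 0, 0, 0, 0, 0, 0, 0, 0, 0, 0, 0, 0, 0, 0, 0, 0, 0, 0, 0, 0, 1, 1, 0, 0, 1, 1, 1, 1, 1, 1, 1, 0, 3, 1, 2, 0, 3, 0, 4, 2, 3, 0, 2, 1, 3, 2, 1, 1, 2, 1, 2, 4, 1, 2, 2, 1, 2, 4, 2, 4, 2, 3, 3, 6, 2, 7, 3, 5, 4, 6, 4, 7, 5, 4, 6, 6, 6, 7, 8, 3, 8],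
  [0, 0, 0, 0, 0, 0, 0, 0, 0, 0, 0, 0, 0, 0, 0, 0, 0, 0, 0, 0, 0, 0, 0, 0, 0, 0, 0, 0, 0, 0, 0, 1, 0, 1, 0, 1, 0, 2, 0, 2, 0, 1, 1, 2, 1, 2, 1, 1, 2, 3, 2, 2, 2, 1, 2, 2, 2, 1, 2, 0, 2, 3, 2, 2, 3, 0, 2, 3, 2, 3, 3, 2, 3, 4, 3, 6, 4, 4, 4, 6, 3, 8, 3, 7, 3, 8, 1, 10, 5, 8, 5],
  [0, 0, 0, 0, 0, 0, 0, 0, 0, 0, 0, 0, 0, 0, 0, 0, 0, 0, 0, 0, 0, 0, 0, 0, 0, 0, 0, 0, 0, 0, 0, 0, 0, 1, 1, 0, 0, 1, 1, 1, 1, 1, 1, 1, 0, 3, 1, 2, 0, 3, 0, 4, 2, 3, 0, 2, 1, 3, 2, 1, 1, 2, 1, 2, 4, 1, 2, 2, 1, 2, 4, 2, 4, 2, 3, 3, 6, 2, 7, 3, 5, 4, 6, 4, 7, 5, 4, 6, 6, 6, 7],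
  [0, 0, 0, 0, 0, 0, 0, 0, 0, 0, 0, 0, 0, 0, 0, 0, 0, 0, 0, 0, 0, 0, 0, 0, 0, 0, 0, 0, 0, 0, 0, 0, 0, 0, 1, 0, 1, 0, 1, 0, 2, 0, 2, 0, 1, 1, 2, 1, 2, 1, 1, 2, 3, 2, 2, 2, 1, 2, 2, 2, 1, 2, 0, 2, 3, 2, 2, 3, 0, 2, 3, 2, 3, 3, 2, 3, 4, 3, 6, 4, 4, 4, 6, 3, 8, 3, 7, 3, 8, 1, 10],
  [0, 0, 0, 0, 0, 0, 0, 0, 0, 0, 0, 0, 0, 0, 0, 0, 0, 0, 0, 0, 0, 0, 0, 0, 0, 0, 0, 0, 0, 0, 0, 0, 0, 0, 0, 0, 1, 1, 0, 0, 1, 1, 1, 1, 1, 1, 1, 0, 3, 1, 2, 0, 3, 0, 4, 2, 3, 0, 2, 1, 3, 2, 1, 1, 2, 1, 2, 4, 1, 2, 2, 1, 2, 4, 2, 4, 2, 3, 3, 6, 2, 7, 3, 5, 4, 6, 4, 7, 5, 4, 6],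
  [0, 0, 0, 0, 0, 0, 0, 0, 0, 0, 0, 0, 0, 0, 0, 0, 0, 0, 0, 0, 0, 0, 0, 0, 0, 0, 0, 0, 0, 0, 0, 0, 0, 0, 0, 0, 0, 1, 0, 1, 0, 1, 0, 2, 0, 2, 0, 1, 1, 2, 1, 2, 1, 1, 2, 3, 2, 2, 2, 1, 2, 2, 2, 1, 2, 0, 2, 3, 2, 2, 3, 0, 2, 3, 2, 3, 3, 2, 3, 4, 3, 6, 4, 4, 4, 6, 3, 8, 3, 7, 3],
  [0, 0, 0, 0, 0, 0, 0, 0, 0, 0, 0, 0, 0, 0, 0, 0, 0, 0, 0, 0, 0, 0, 0, 0, 0, 0, 0, 0, 0, 0, 0, 0, 0, 0, 0, 0, 0, 0, 0, 1, 1, 0, 0, 1, 1, 1, 1, 1, 1, 1, 0, 3, 1, 2, 0, 3, 0, 4, 2, 3, 0, 2, 1, 3, 2, 1, 1, 2, 1, 2, 4, 1, 2, 2, 1, 2, 4, 2, 4, 2, 3, 3, 6, 2, 7, 3, 5, 4, 6, 4, 7],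
  [0, 0, 0, 0, 0, 0, 0, 0, 0, 0, 0, 0, 0, 0, 0, 0, 0, 0, 0, 0, 0, 0, 0, 0, 0, 0, 0, 0, 0, 0, 0, 0, 0, 0, 0, 0, 0, 0, 0, 0, 1, 0, 1, 0, 1, 0, 2, 0, 2, 0, 1, 1, 2, 1, 2, 1, 1, 2, 3, 2, 2, 2, 1, 2, 2, 2, 1, 2, 0, 2, 3, 2, 2, 3, 0, 2, 3, 2, 3, 3, 2, 3, 4, 3, 6, 4, 4, 4, 6, 3, 8],
  [0, 0, 0, 0, 0, 0, 0, 0, 0, 0, 0, 0, 0, 0, 0, 0, 0, 0, 0, 0, 0, 0, 0, 0, 0, 0, 0, 0, 0, 0, 0, 0, 0, 0, 0, 0, 0, 0, 0, 0, 0, 0, 1, 1, 0, 0, 1, 1, 1, 1, 1, 1, 1, 0, 3, 1, 2, 0, 3, 0, 4, 2, 3, 0, 2, 1, 3, 2, 1, 1, 2, 1, 2, 4, 1, 2, 2, 1, 2, 4, 2, 4, 2, 3, 3, 6, 2, 7, 3, 5, 4],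
  [0, 0, 0, 0, 0, 0, 0, 0, 0, 0, 0, 0, 0, 0, 0, 0, 0, 0, 0, 0, 0, 0, 0, 0, 0, 0, 0, 0, 0, 0, 0, 0, 0, 0, 0, 0, 0, 0, 0, 0, 0, 0, 0, 1, 0, 1, 0, 1, 0, 2, 0, 2, 0, 1, 1, 2, 1, 2, 1, 1, 2, 3, 2, 2, 2, 1, 2, 2, 2, 1, 2, 0, 2, 3, 2, 2, 3, 0, 2, 3, 2, 3, 3, 2, 3, 4, 3, 6, 4, 4, 4],
  [0, 0, 0, 0, 0, 0, 0, 0, 0, 0, 0, 0, 0, 0, 0, 0, 0, 0, 0, 0, 0, 0, 0, 0, 0, 0, 0, 0, 0, 0, 0, 0, 0, 0, 0, 0, 0, 0, 0, 0, 0, 0, 0, 0, 0, 1, 1, 0, 0, 1, 1, 1, 1, 1, 1, 1, 0, 3, 1, 2, 0, 3, 0, 4, 2, 3, 0, 2, 1, 3, 2, 1, 1, 2, 1, 2, 4, 1, 2, 2, 1, 2, 4, 2, 4, 2, 3, 3, 6, 2, 7],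
  [0, 0, 0, 0, 0, 0, 0, 0, 0, 0, 0, 0, 0, 0, 0, 0, 0, 0, 0, 0, 0, 0, 0, 0, 0, 0, 0, 0, 0, 0, 0, 0, 0, 0, 0, 0, 0, 0, 0, 0, 0, 0, 0, 0, 0, 0, 1, 0, 1, 0, 1, 0, 2, 0, 2, 0, 1, 1, 2, 1, 2, 1, 1, 2, 3, 2, 2, 2, 1, 2, 2, 2, 1, 2, 0, 2, 3, 2, 2, 3, 0, 2, 3, 2, 3, 3, 2, 3, 4, 3, 6],
  [0, 0, 0, 0, 0, 0, 0, 0, 0, 0, 0, 0, 0, 0, 0, 0, 0, 0, 0, 0, 0, 0, 0, 0, 0, 0, 0, 0, 0, 0, 0, 0, 0, 0, 0, 0, 0, 0, 0, 0, 0, 0, 0, 0, 0, 0, 0, 0, 1, 1, 0, 0, 1, 1, 1, 1, 1, 1, 1, 0, 3, 1, 2, 0, 3, 0, 4, 2, 3, 0, 2, 1, 3, 2, 1, 1, 2, 1, 2, 4, 1, 2, 2, 1, 2, 4, 2, 4, 2, 3, 3]]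

end Vale.Agent.P236N.Dt

end
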