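import Vale.Agent.P236N.Dt.All
import Vale.Agent.P236N.Ex2

/-!
# P236N: the checks of level 13
-/

namespace Vale.Agent.P236N.Dt

theorem shape_13 : D.shape 13 = true := by decide +kernel

theorem ck1_13 : D.ck1 13 = true := by decide +kernel

theorem ck2_13 : D.ck2 13 = true := by decide +kernel

theorem ckK_13 : D.ckK 13 = true := by decide +kernel

theorem ckG_13 : D.ckG 13 = true := by decide +kernel

theorem num13 : D.ckN nT 13 = true := by decide +kernel

end Vale.Agent.P236N.Dt
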