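import Vale.Agent.P236N.Dt.All
import Vale.Agent.P236N.Ex2

/-!
# P236N: the checks of level 19
-/

namespace Vale.Agent.P236N.Dt

theorem shape_19 : D.shape 19 = true := by decide +kernel

theorem ck1_19 : D.ck1 19 = true := by decide +kernel

theorem ck2_19 : D.ck2 19 = true := by decide +kernel

theorem ckK_19 : D.ckK 19 = true := by decide +kernel

theorem ckG_19 : D.ckG 19 = true := by decide +kernel

theorem num19 : D.ckN nT 19 = true := by decide +kernel

end Vale.Agent.P236N.Dt
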