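import Vale.Agent.P236N.Dt.All
import Vale.Agent.P236N.Ex2

/-!
# P236N: the checks of level 20
-/

namespace Vale.Agent.P236N.Dt

theorem shape_20 : D.shape 20 = true := by decide +kernel

theorem ck1_20 : D.ck1 20 = true := by decide +kernel

theorem ck2_20 : D.ck2 20 = true := by decide +kernel

theorem ckK_20 : D.ckK 20 = true := by decide +kernel

theorem ckG_20 : D.ckG 20 = true := by decide +kernel

theorem num20 : D.ckN nT 20 = true := by decide +kernel

end Vale.Agent.P236N.Dt
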