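import Vale.Agent.P236N.Dt.All
import Vale.Agent.P236N.Ex2

/-!
# P236N: the checks of level 21
-/

namespace Vale.Agent.P236N.Dt

theorem shape_21 : D.shape 21 = true := by decide +kernel

theorem ck1_21 : D.ck1 21 = true := by decide +kernel

theorem ck2_21 : D.ck2 21 = true := by decide +kernel

theorem ckK_21 : D.ckK 21 = true := by decide +kernel

theorem ckG_21 : D.ckG 21 = true := by decide +kernel

theorem num21 : D.ckN nT 21 = true := by decide +kernel

end Vale.Agent.P236N.Dt
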