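import Vale.Agent.P236N.Dt.All
import Vale.Agent.P236N.Ex2

/-!
# P236N: the checks of level 27
-/

namespace Vale.Agent.P236N.Dt

theorem shape_27 : D.shape 27 = true := by decide +kernel

theorem ck1_27 : D.ck1 27 = true := by decide +kernel

theorem ck2_27 : D.ck2 27 = true := by decide +kernel

theorem ckK_27 : D.ckK 27 = true := by decide +kernel

theorem ckG_27 : D.ckG 27 = true := by decide +kernel

theorem num27 : D.ckN nT 27 = true := by decide +kernel

end Vale.Agent.P236N.Dt
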