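import Vale.Agent.P236N.Dt.All
import Vale.Agent.P236N.Ex2

/-!
# P236N: the checks of level 28
-/

namespace Vale.Agent.P236N.Dt

theorem shape_28 : D.shape 28 = true := by decide +kernel

theorem ck1_28 : D.ck1 28 = true := by decide +kernel

theorem ck2_28 : D.ck2 28 = true := by decide +kernel

theorem ckK_28 : D.ckK 28 = true := by decide +kernel

theorem ckG_28 : D.ckG 28 = true := by decide +kernel

theorem num28 : D.ckN nT 28 = true := by decide +kernel

end Vale.Agent.P236N.Dt
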