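import Vale.Agent.P236N.Dt.All
import Vale.Agent.P236N.Ex2

/-!
# P236N: the checks of level 32
-/

namespace Vale.Agent.P236N.Dt

theorem shape_32 : D.shape 32 = true := by decide +kernel

theorem ck1_32 : D.ck1 32 = true := by decide +kernel

theorem ck2_32 : D.ck2 32 = true := by decide +kernel

theorem ckK_32 : D.ckK 32 = true := by decide +kernel

theorem ckG_32 : D.ckG 32 = true := by decide +kernel

theorem num32 : D.ckN nT 32 = true := by decide +kernel

end Vale.Agent.P236N.Dt
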