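import Vale.Agent.P236N.Dt.All
import Vale.Agent.P236N.Ex2

/-!
# P236N: the checks of level 5
-/

namespace Vale.Agent.P236N.Dt

theorem ckB_5_0 : D.ckB 5 (List.take 55 (D.rb 5)) = true := by decide +kernel

theorem ckB_5_1 : D.ckB 5 (List.drop 55 (D.rb 5)) = true := by decide +kernel

theorem ckR_5 : D.ckR 5 = true :=
  Dat.ckR_of (Dat.ckB_cut ckB_5_0 ckB_5_1)

end Vale.Agent.P236N.Dt
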