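import Vale.Agent.P236N.Dt.All
import Vale.Agent.P236N.Ex2

/-!
# P236N: the checks of level 6
-/

namespace Vale.Agent.P236N.Dt

theorem ckB_6_0 : D.ckB 6 (List.take 56 (D.rb 6)) = true := by decide +kernel

theorem ckB_6_1 : D.ckB 6 (List.take 38 (List.drop 56 (D.rb 6))) = true := by decide +kernel

theorem ckB_6_2 : D.ckB 6 (List.drop 38 (List.drop 56 (D.rb 6))) = true := by decide +kernel

theorem ckR_6 : D.ckR 6 = true :=
  Dat.ckR_of (Dat.ckB_cut ckB_6_0 (Dat.ckB_cut ckB_6_1 ckB_6_2))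

end Vale.Agent.P236N.Dt
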