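import Vale.Agent.P236N.Dt.All
import Vale.Agent.P236N.Ex2

/-!
# P236N: the checks of level 7
-/

namespace Vale.Agent.P236N.Dt

theorem ckB_7_0 : D.ckB 7 (List.take 55 (D.rb 7)) = true := by decide +kernel

theorem ckB_7_1 : D.ckB 7 (List.take 42 (List.drop 55 (D.rb 7))) = true := by decide +kernel

theorem ckB_7_2 : D.ckB 7 (List.take 33 (List.drop 42 (List.drop 55 (D.rb 7)))) = true := by decide +kernel

theorem ckB_7_3 : D.ckB 7 (List.drop 33 (List.drop 42 (List.drop 55 (D.rb 7)))) = true := by decide +kernel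

theorem ckR_7 : D.ckR 7 = true :=
  Dat.ckR_of (Dat.ckB_cut ckB_7_0 (Dat.ckB_cut ckB_7_1 (Dat.ckB_cut ckB_7_2 ckB_7_3)))

end Vale.Agent.P236N.Dt
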