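import Vale.Agent.P236N.Dt.All
import Vale.Agent.P236N.Ex2

/-!
# P236N: the checks of level 9
-/

namespace Vale.Agent.P236N.Dt

theorem ckB_9_0 : D.ckB 9 (List.take 51 (D.rb 9)) = true := by decide +kernel

theorem ckB_9_1 : D.ckB 9 (List.take 35 (List.drop 51 (D.rb 9))) = true := by decide +kernel

theorem ckB_9_2 : D.ckB 9 (List.take 33 (List.drop 35 (List.drop 51 (D.rb 9)))) = true := by decide +kernel

theorem ckB_9_3 : D.ckB 9 (List.take 30 (List.drop 33 (List.drop 35 (List.drop 51 (D.rb 9))))) = true := by decide +kernel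

theorem ckB_9_4 : D.ckB 9 (List.drop 30 (List.drop 33 (List.drop 35 (List.drop 51 (D.rb 9))))) = true := by decide +kernel

theorem ckR_9 : D.ckR 9 = true :=
  Dat.ckR_of (Dat.ckB_cut ckB_9_0 (Dat.ckB_cut ckB_9_1 (Dat.ckB_cut ckB_9_2 (Dat.ckB_cut ckB_9_3 ckB_9_4))))

end Vale.Agent.P236N.Dt
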