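import Vale.Agent.P236N.Dt.All
import Vale.Agent.P236N.Ex2

/-!
# P236N: the checks of level 11
-/

namespace Vale.Agent.P236N.Dt

theorem ckB_11_0 : D.ckB 11 (List.take 51 (D.rb 11)) = true := by decide +kernel

theorem ckB_11_1 : D.ckB 11 (List.take 37 (List.drop 51 (D.rb 11))) = true := by decide +kernel

theorem ckB_11_2 : D.ckB 11 (List.take 26 (List.drop 37 (List.drop 51 (D.rb 11)))) = true := by decide +kernel

theorem ckB_11_3 : D.ckB 11 (List.take 23 (List.drop 26 (List.drop 37 (List.drop 51 (D.rb 11))))) = true := by decide +kernel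

theorem ckB_11_4 : D.ckB 11 (List.take 24 (List.drop 23 (List.drop 26 (List.drop 37 (List.drop 51 (D.rb 11)))))) = true := by decide +kernel

theorem ckB_11_5 : D.ckB 11 (List.drop 24 (List.drop 23 (List.drop 26 (List.drop 37 (List.drop 51 (D.rb 11)))))) = true := by decide +kernel

theorem ckR_11 : D.ckR 11 = true :=
  Dat.ckR_of (Dat.ckB_cut ckB_11_0 (Dat.ckB_cut ckB_11_1 (Dat.ckB_cut ckB_11_2 (Dat.ckB_cut ckB_11_3 (Dat.ckB_cut ckB_11_4 ckB_11_5)))))

end Vale.Agent.P236N.Dt
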