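import Vale.Agent.P236N.Dt.All
import Vale.Agent.P236N.Ex2

/-!
# P236N: the checks of level 13
-/

namespace Vale.Agent.P236N.Dt

theorem ckB_13_0 : D.ckB 13 (List.take 48 (D.rb 13)) = true := by decide +kernel

theorem ckB_13_1 : D.ckB 13 (List.take 33 (List.drop 48 (D.rb 13))) = true := by decide +kernel

theorem ckB_13_2 : D.ckB 13 (List.take 27 (List.drop 33 (List.drop 48 (D.rb 13)))) = true := by decide +kernel

theorem ckB_13_3 : D.ckB 13 (List.take 22 (List.drop 27 (List.drop 33 (List.drop 48 (D.rb 13))))) = true := by decide +kernel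

theorem ckB_13_4 : D.ckB 13 (List.take 22 (List.drop 22 (List.drop 27 (List.drop 33 (List.drop 48 (D.rb 13)))))) = true := by decide +kernel

theorem ckB_13_5 : D.ckB 13 (List.drop 22 (List.drop 22 (List.drop 27 (List.drop 33 (List.drop 48 (D.rb 13)))))) = true := by decide +kernel

theorem ckR_13 : D.ckR 13 = true :=
  Dat.ckR_of (Dat.ckB_cut ckB_13_0 (Dat.ckB_cut ckB_13_1 (Dat.ckB_cut ckB_13_2 (Dat.ckB_cut ckB_13_3 (Dat.ckB_cut ckB_13_4 ckB_13_5)))))

end Vale.Agent.P236N.Dt
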