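import Vale.Agent.P236N.Dt.All
import Vale.Agent.P236N.Ex2

/-!
# P236N: the checks of level 14
-/

namespace Vale.Agent.P236N.Dt

theorem ckB_14_0 : D.ckB 14 (List.take 49 (D.rb 14)) = true := by decide +kernel

theorem ckB_14_1 : D.ckB 14 (List.take 35 (List.drop 49 (D.rb 14))) = true := by decide +kernel

theorem ckB_14_2 : D.ckB 14 (List.take 28 (List.drop 35 (List.drop 49 (D.rb 14)))) = true := by decide +kernel

theorem ckB_14_3 : D.ckB 14 (List.take 23 (List.drop 28 (List.drop 35 (List.drop 49 (D.rb 14))))) = true := by decide +kernel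

theorem ckB_14_4 : D.ckB 14 (List.take 23 (List.drop 23 (List.drop 28 (List.drop 35 (List.drop 49 (D.rb 14)))))) = true := by decide +kernel

theorem ckB_14_5 : D.ckB 14 (List.drop 23 (List.drop 23 (List.drop 28 (List.drop 35 (List.drop 49 (D.rb 14)))))) = true := by decide +kernel

theorem ckR_14 : D.ckR 14 = true :=
  Dat.ckR_of (Dat.ckB_cut ckB_14_0 (Dat.ckB_cut ckB_14_1 (Dat.ckB_cut ckB_14_2 (Dat.ckB_cut ckB_14_3 (Dat.ckB_cut ckB_14_4 ckB_14_5)))))

end Vale.Agent.P236N.Dt
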