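import Vale.Agent.P236N.Dt.All
import Vale.Agent.P236N.Ex2

/-!
# P236N: the checks of level 15
-/

namespace Vale.Agent.P236N.Dt

theorem ckB_15_0 : D.ckB 15 (List.take 46 (D.rb 15)) = true := by decide +kernel

theorem ckB_15_1 : D.ckB 15 (List.take 31 (List.drop 46 (D.rb 15))) = true := by decide +kernel

theorem ckB_15_2 : D.ckB 15 (List.take 26 (List.drop 31 (List.drop 46 (D.rb 15)))) = true := by decide +kernel

theorem ckB_15_3 : D.ckB 15 (List.take 25 (List.drop 26 (List.drop 31 (List.drop 46 (D.rb 15))))) = true := by decide +kernel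

theorem ckB_15_4 : D.ckB 15 (List.drop 25 (List.drop 26 (List.drop 31 (List.drop 46 (D.rb 15))))) = true := by decide +kernel

theorem ckR_15 : D.ckR 15 = true :=
  Dat.ckR_of (Dat.ckB_cut ckB_15_0 (Dat.ckB_cut ckB_15_1 (Dat.ckB_cut ckB_15_2 (Dat.ckB_cut ckB_15_3 ckB_15_4))))

end Vale.Agent.P236N.Dt
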