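import Vale.Agent.P236N.Dt.All
import Vale.Agent.P236N.Ex2

/-!
# P236N: the checks of level 16
-/

namespace Vale.Agent.P236N.Dt

theorem ckB_16_0 : D.ckB 16 (List.take 46 (D.rb 16)) = true := by decide +kernel

theorem ckB_16_1 : D.ckB 16 (List.take 29 (List.drop 46 (D.rb 16))) = true := by decide +kernel

theorem ckB_16_2 : D.ckB 16 (List.take 26 (List.drop 29 (List.drop 46 (D.rb 16)))) = true := by decide +kernel

theorem ckB_16_3 : D.ckB 16 (List.drop 26 (List.drop 29 (List.drop 46 (D.rb 16)))) = true := by decide +kernel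

theorem ckR_16 : D.ckR 16 = true :=
  Dat.ckR_of (Dat.ckB_cut ckB_16_0 (Dat.ckB_cut ckB_16_1 (Dat.ckB_cut ckB_16_2 ckB_16_3)))

end Vale.Agent.P236N.Dt
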