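import Vale.Agent.P236N.Dt.All
import Vale.Agent.P236N.Ex2

/-!
# P236N: the checks of level 17
-/

namespace Vale.Agent.P236N.Dt

theorem ckB_17_0 : D.ckB 17 (List.take 36 (D.rb 17)) = true := by decide +kernel

theorem ckB_17_1 : D.ckB 17 (List.take 25 (List.drop 36 (D.rb 17))) = true := by decide +kernel

theorem ckB_17_2 : D.ckB 17 (List.drop 25 (List.drop 36 (D.rb 17))) = true := by decide +kernel

theorem ckR_17 : D.ckR 17 = true :=
  Dat.ckR_of (Dat.ckB_cut ckB_17_0 (Dat.ckB_cut ckB_17_1 ckB_17_2))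

end Vale.Agent.P236N.Dt
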