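import Vale.Agent.P236N.Dt.All
import Vale.Agent.P236N.Ex2

/-!
# P236N: the checks of level 24
-/

namespace Vale.Agent.P236N.Dt

theorem ckB_24_0 : D.ckB 24 (D.rb 24) = true := by decide +kernel

theorem ckR_24 : D.ckR 24 = true :=
  Dat.ckR_of ckB_24_0

end Vale.Agent.P236N.Dt
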