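import Vale.Agent.P236N.Dt.C00
import Vale.Agent.P236N.Dt.C01
import Vale.Agent.P236N.Dt.C02
import Vale.Agent.P236N.Dt.C03
import Vale.Agent.P236N.Dt.C04
import Vale.Agent.P236N.Dt.C05
import Vale.Agent.P236N.Dt.C06
import Vale.Agent.P236N.Dt.C07
import Vale.Agent.P236N.Dt.C08
import Vale.Agent.P236N.Dt.C09
import Vale.Agent.P236N.Dt.C10
import Vale.Agent.P236N.Dt.C11
import Vale.Agent.P236N.Dt.C12
import Vale.Agent.P236N.Dt.C13
import Vale.Agent.P236N.Dt.C14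
import Vale.Agent.P236N.Dt.C15
import Vale.Agent.P236N.Dt.C16
import Vale.Agent.P236N.Dt.C17
import Vale.Agent.P236N.Dt.C18
import Vale.Agent.P236N.Dt.C19
import Vale.Agent.P236N.Dt.C20
import Vale.Agent.P236N.Dt.C21
import Vale.Agent.P236N.Dt.C22
import Vale.Agent.P236N.Dt.C23
import Vale.Agent.P236N.Dt.C24
import Vale.Agent.P236N.Dt.C25
import Vale.Agent.P236N.Dt.C26
import Vale.Agent.P236N.Dt.C27
import Vale.Agent.P236N.Dt.C28
import Vale.Agent.P236N.Dt.C29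
import Vale.Agent.P236N.Dt.C30
import Vale.Agent.P236N.Dt.C31
import Vale.Agent.P236N.Dt.C32
import Vale.Agent.P236N.Dt.P01
import Vale.Agent.P236N.Dt.P02
import Vale.Agent.P236N.Dt.P03
import Vale.Agent.P236N.Dt.P04
import Vale.Agent.P236N.Dt.P05
import Vale.Agent.P236N.Dt.P06
import Vale.Agent.P236N.Dt.P07
import Vale.Agent.P236N.Dt.P08
import Vale.Agent.P236N.Dt.P09
import Vale.Agent.P236N.Dt.P10
import Vale.Agent.P236N.Dt.P11
import Vale.Agent.P236N.Dt.P12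
import Vale.Agent.P236N.Dt.P13
import Vale.Agent.P236N.Dt.P14
import Vale.Agent.P236N.Dt.P15
import Vale.Agent.P236N.Dt.P16
import Vale.Agent.P236N.Dt.P17
import Vale.Agent.P236N.Dt.P18
import Vale.Agent.P236N.Dt.P19
import Vale.Agent.P236N.Dt.P20
import Vale.Agent.P236N.Dt.P21
import Vale.Agent.P236N.Dt.P22
import Vale.Agent.P236N.Dt.P23
import Vale.Agent.P236N.Dt.P24
import Vale.Agent.P236N.Dt.P25
import Vale.Agent.P236N.Dt.P26
import Vale.Agent.P236N.Dt.P27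
import Vale.Agent.P236N.Dt.P28
import Vale.Agent.P236N.Dt.P29
import Vale.Agent.P236N.Dt.P30
import Vale.Agent.P236N.Dt.P31
import Vale.Agent.P236N.Dt.P32

/-!
# P236N: all checks
-/

namespace Vale.Agent.P236N.Dt

theorem lev_all : ∀ s, 1 ≤ s → s ≤ 32 → D.lev s = true
  | 0, h, _ => absurd h (by omega)
  | 1, _, _ => Dat.lev_of shape_1 ck1_1 ck2_1 ckK_1 ckG_1 ckR_1
  | 2, _, _ => Dat.lev_of shape_2 ck1_2 ck2_2 ckK_2 ckG_2 ckR_2
  | 3, _, _ => Dat.lev_of shape_3 ck1_3 ck2_3 ckK_3 ckG_3 ckR_3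
  | 4, _, _ => Dat.lev_of shape_4 ck1_4 ck2_4 ckK_4 ckG_4 ckR_4
  | 5, _, _ => Dat.lev_of shape_5 ck1_5 ck2_5 ckK_5 ckG_5 ckR_5
  | 6, _, _ => Dat.lev_of shape_6 ck1_6 ck2_6 ckK_6 ckG_6 ckR_6
  | 7, _, _ => Dat.lev_of shape_7 ck1_7 ck2_7 ckK_7 ckG_7 ckR_7
  | 8, _, _ => Dat.lev_of shape_8 ck1_8 ck2_8 ckK_8 ckG_8 ckR_8
  | 9, _, _ => Dat.lev_of shape_9 ck1_9 ck2_9 ckK_9 ckG_9 ckR_9
  | 10, _, _ => Dat.lev_of shape_10 ck1_10 ck2_10 ckK_10 ckG_10 ckR_10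
  | 11, _, _ => Dat.lev_of shape_11 ck1_11 ck2_11 ckK_11 ckG_11 ckR_11
  | 12, _, _ => Dat.lev_of shape_12 ck1_12 ck2_12 ckK_12 ckG_12 ckR_12
  | 13, _, _ => Dat.lev_of shape_13 ck1_13 ck2_13 ckK_13 ckG_13 ckR_13
  | 14, _, _ => Dat.lev_of shape_14 ck1_14 ck2_14 ckK_14 ckG_14 ckR_14
  | 15, _, _ => Dat.lev_of shape_15 ck1_15 ck2_15 ckK_15 ckG_15 ckR_15
  | 16, _, _ => Dat.lev_of shape_16 ck1_16 ck2_16 ckK_16 ckG_16 ckR_16
  | 17, _, _ => Dat.lev_of shape_17 ck1_17 ck2_17 ckK_17 ckG_17 ckR_17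
  | 18, _, _ => Dat.lev_of shape_18 ck1_18 ck2_18 ckK_18 ckG_18 ckR_18
  | 19, _, _ => Dat.lev_of shape_19 ck1_19 ck2_19 ckK_19 ckG_19 ckR_19
  | 20, _, _ => Dat.lev_of shape_20 ck1_20 ck2_20 ckK_20 ckG_20 ckR_20
  | 21, _, _ => Dat.lev_of shape_21 ck1_21 ck2_21 ckK_21 ckG_21 ckR_21
  | 22, _, _ => Dat.lev_of shape_22 ck1_22 ck2_22 ckK_22 ckG_22 ckR_22
  | 23, _, _ => Dat.lev_of shape_23 ck1_23 ck2_23 ckK_23 ckG_23 ckR_23
  | 24, _, _ => Dat.lev_of shape_24 ck1_24 ck2_24 ckK_24 ckG_24 ckR_24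
  | 25, _, _ => Dat.lev_of shape_25 ck1_25 ck2_25 ckK_25 ckG_25 ckR_25
  | 26, _, _ => Dat.lev_of shape_26 ck1_26 ck2_26 ckK_26 ckG_26 ckR_26
  | 27, _, _ => Dat.lev_of shape_27 ck1_27 ck2_27 ckK_27 ckG_27 ckR_27
  | 28, _, _ => Dat.lev_of shape_28 ck1_28 ck2_28 ckK_28 ckG_28 ckR_28
  | 29, _, _ => Dat.lev_of shape_29 ck1_29 ck2_29 ckK_29 ckG_29 ckR_29
  | 30, _, _ => Dat.lev_of shape_30 ck1_30 ck2_30 ckK_30 ckG_30 ckR_30
  | 31, _, _ => Dat.lev_of shape_31 ck1_31 ck2_31 ckK_31 ckG_31 ckR_31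
  | 32, _, _ => Dat.lev_of shape_32 ck1_32 ck2_32 ckK_32 ckG_32 ckR_32
  | _ + 33, _, h => absurd h (by omega)

theorem num_all : ∀ s ≤ 32, D.ckN nT s = true
  | 0, _ => num0
  | 1, _ => num1
  | 2, _ => num2
  | 3, _ => num3
  | 4, _ => num4
  | 5, _ => num5
  | 6, _ => num6
  | 7, _ => num7
  | 8, _ => num8
  | 9, _ => num9
  | 10, _ => num10
  | 11, _ => num11
  | 12, _ => num12
  | 13, _ => num13
  | 14, _ => num14
  | 15, _ => num15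
  | 16, _ => num16
  | 17, _ => num17
  | 18, _ => num18
  | 19, _ => num19
  | 20, _ => num20
  | 21, _ => num21
  | 22, _ => num22
  | 23, _ => num23
  | 24, _ => num24
  | 25, _ => num25
  | 26, _ => num26
  | 27, _ => num27
  | 28, _ => num28
  | 29, _ => num29
  | 30, _ => num30
  | 31, _ => num31
  | 32, _ => num32
  | _ + 33, h => absurd h (by omega)

end Vale.Agent.P236N.Dt
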