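import Vale.Agent.P236N.Dt.All
import Vale.Agent.P236S.DR

/-!
# P236N: the products in the tables of the derivation are certified
-/

namespace Vale.Agent.P236N.Dt

open Vale.Agent.P236S

theorem row0 : rowAll (D.has 0) (nth [] rT 0) = true := by decide +kernel

theorem row1 : rowAll (D.has 1) (nth [] rT 1) = true := by decide +kernel

theorem row2 : rowAll (D.has 2) (nth [] rT 2) = true := by decide +kernel

theorem row3 : rowAll (D.has 3) (nth [] rT 3) = true := by decide +kernel

theorem row4 : rowAll (D.has 4) (nth [] rT 4) = true := by decide +kernel

theorem row5 : rowAll (D.has 5) (nth [] rT 5) = true := by decide +kernel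

theorem row6 : rowAll (D.has 6) (nth [] rT 6) = true := by decide +kernel

theorem row7 : rowAll (D.has 7) (nth [] rT 7) = true := by decide +kernel

theorem row8 : rowAll (D.has 8) (nth [] rT 8) = true := by decide +kernel

theorem row9 : rowAll (D.has 9) (nth [] rT 9) = true := by decide +kernel

theorem row10 : rowAll (D.has 10) (nth [] rT 10) = true := by decide +kernel

theorem row11 : rowAll (D.has 11) (nth [] rT 11) = true := by decide +kernel

theorem row12 : rowAll (D.has 12) (nth [] rT 12) = true := by decide +kernel

theorem row13 : rowAll (D.has 13) (nth [] rT 13) = true := by decide +kernel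

theorem row14 : rowAll (D.has 14) (nth [] rT 14) = true := by decide +kernel

theorem row15 : rowAll (D.has 15) (nth [] rT 15) = true := by decide +kernel

theorem row16 : rowAll (D.has 16) (nth [] rT 16) = true := by decide +kernel

theorem row17 : rowAll (D.has 17) (nth [] rT 17) = true := by decide +kernel

theorem row18 : rowAll (D.has 18) (nth [] rT 18) = true := by decide +kernel

theorem row19 : rowAll (D.has 19) (nth [] rT 19) = true := by decide +kernel

theorem row20 : rowAll (D.has 20) (nth [] rT 20) = true := by decide +kernel

theorem row21 : rowAll (D.has 21) (nth [] rT 21) = true := by decide +kernel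

theorem row22 : rowAll (D.has 22) (nth [] rT 22) = true := by decide +kernel

theorem row23 : rowAll (D.has 23) (nth [] rT 23) = true := by decide +kernel

theorem row24 : rowAll (D.has 24) (nth [] rT 24) = true := by decide +kernel

theorem row25 : rowAll (D.has 25) (nth [] rT 25) = true := by decide +kernel

theorem row26 : rowAll (D.has 26) (nth [] rT 26) = true := by decide +kernel

theorem row27 : rowAll (D.has 27) (nth [] rT 27) = true := by decide +kernel

theorem row28 : rowAll (D.has 28) (nth [] rT 28) = true := by decide +kernel

theorem row29 : rowAll (D.has 29) (nth [] rT 29) = true := by decide +kernel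

theorem row30 : rowAll (D.has 30) (nth [] rT 30) = true := by decide +kernel

theorem row31 : rowAll (D.has 31) (nth [] rT 31) = true := by decide +kernel

theorem row32 : rowAll (D.has 32) (nth [] rT 32) = true := by decide +kernel

theorem row_all : ∀ s < rT.length, rowAll (D.has s) (nth [] rT s) = true
  | 0, _ => row0
  | 1, _ => row1
  | 2, _ => row2
  | 3, _ => row3
  | 4, _ => row4
  | 5, _ => row5
  | 6, _ => row6
  | 7, _ => row7
  | 8, _ => row8
  | 9, _ => row9
  | 10, _ => row10
  | 11, _ => row11
  | 12, _ => row12
  | 13, _ => row13
  | 14, _ => row14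
  | 15, _ => row15
  | 16, _ => row16
  | 17, _ => row17
  | 18, _ => row18
  | 19, _ => row19
  | 20, _ => row20
  | 21, _ => row21
  | 22, _ => row22
  | 23, _ => row23
  | 24, _ => row24
  | 25, _ => row25
  | 26, _ => row26
  | 27, _ => row27
  | 28, _ => row28
  | 29, _ => row29
  | 30, _ => row30
  | 31, _ => row31
  | 32, _ => row32
  | _ + 33, h => absurd h (Nat.not_lt.2 (Nat.le_add_left 33 _))

theorem num_eq : allLt (fun s => allLt (fun d => Nat.beq ((nT.getD s []).getD d 0)
    (nth 0 (nth [] P236S.nT s) d)) 91) 33 = true := by decide +kernel

end Vale.Agent.P236N.Dt
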