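import Vale.Agent.P236N.DatS
import Vale.Agent.P236N.Dt.Ck
import Vale.Agent.P236N.Dt.Row
import Vale.Agent.P236S.DE

/-!
# P236N: the algebraic input follows from the comparison and the claims
-/

namespace Vale.Agent.P236N.Dt

open Vale.Agent.P236B Vale.Agent.P236K

/-- **The algebraic input.** -/
theorem alg_of_claims {G : Type} [Fintype G] [DecidableEq G] {R : Res 3 G} {gen : ℕ → G}
    {T : ℕ → ℕ} (K : Cmp R 6 T) (hT : ∀ s ≤ 32, 180 ≤ T s)
    (dg : ∀ s ≤ 33, Dg R gen s (P236C.D.dsA s))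
    (clm : ∀ s ≤ 32, ∀ c ∈ D.allC s, c.Ok R gen P236C.D.dsA s) : A2 ∧ AlgFacts' := by
  obtain ⟨M, h1, h2, h3⟩ := Hyp.fit (D := D) K hT ⟨dg, lev_all, rest, clm⟩ P236S.eT num_all
    num_eq row_all
  exact P236S.alg_of_fit h1 h2 h3

end Vale.Agent.P236N.Dt
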