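import Vale.Agent.P236N.Dt.All
import Vale.Agent.P236N.Ex2

/-!
# P236N: the checks of level 12
-/

namespace Vale.Agent.P236N.Dt

theorem ckB_12_0 : D.ckB 12 (List.take 52 (D.rb 12)) = true := by decide +kernel

theorem ckB_12_1 : D.ckB 12 (List.take 33 (List.drop 52 (D.rb 12))) = true := by decide +kernel

theorem ckB_12_2 : D.ckB 12 (List.take 25 (List.drop 33 (List.drop 52 (D.rb 12)))) = true := by decide +kernel

theorem ckB_12_3 : D.ckB 12 (List.take 23 (List.drop 25 (List.drop 33 (List.drop 52 (D.rb 12))))) = true := by decide +kernel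

theorem ckB_12_4 : D.ckB 12 (List.take 23 (List.drop 23 (List.drop 25 (List.drop 33 (List.drop 52 (D.rb 12)))))) = true := by decide +kernel

theorem ckB_12_5 : D.ckB 12 (List.drop 23 (List.drop 23 (List.drop 25 (List.drop 33 (List.drop 52 (D.rb 12)))))) = true := by decide +kernel

theorem ckR_12 : D.ckR 12 = true :=
  Dat.ckR_of (Dat.ckB_cut ckB_12_0 (Dat.ckB_cut ckB_12_1 (Dat.ckB_cut ckB_12_2 (Dat.ckB_cut ckB_12_3 (Dat.ckB_cut ckB_12_4 ckB_12_5)))))

end Vale.Agent.P236N.Dt
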